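import Vale.Agent.P253Z.Spec
import Vale.Agent.P268.Hol

/-!
# P253Z, block B1a: holomorphic charts and Jacobian matrices
-/

open scoped Manifold ContDiff Topology
open IsManifold Set Metric Filter Vale.Agent.P253.Mfd
open Vale.Agent.P272.K (Cm dz jacM Chart)

set_option linter.unusedSectionVars false

noncomputable section

namespace Vale.Agent.P253Z.B1aP

variable {n : ℕ}

/-- the derivative `∂/∂z_i` of a component of a holomorphic map -/
theorem dz_comp {F : Cm n → Cm n} {z : Cm n} (hF : DifferentiableAt ℂ F z) (p i : Fin n) :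
    dz i (fun y => F y p) z = fderiv ℂ F z (Pi.single i 1) p := by
  have h1 : HasFDerivAt (fun y => F y p)
      ((ContinuousLinearMap.proj (R := ℂ) (φ := fun _ : Fin n => ℂ) p).comp (fderiv ℂ F z)) z :=
    (ContinuousLinearMap.proj (R := ℂ) (φ := fun _ : Fin n => ℂ) p).hasFDerivAt.comp z
      hF.hasFDerivAt
  have h2 := (h1.restrictScalars ℝ).fderiv
  have h3 : (Pi.single i Complex.I : Cm n) = Complex.I • (Pi.single i 1 : Cm n) := by
    rw [← Pi.single_smul, smul_eq_mul, mul_one]
  unfold dz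
  rw [h2, h3]
  simp only [ContinuousLinearMap.coe_restrictScalars', ContinuousLinearMap.comp_apply, map_smul,
    ContinuousLinearMap.proj_apply, smul_eq_mul]
  linear_combination (-(fderiv ℂ F z (Pi.single i 1) p) / 2) * Complex.I_mul_I

theorem analyticAt_entry {f : Cm n → Cm n} {z : Cm n} (hf : AnalyticAt ℂ f z) (i j : Fin n) :
    AnalyticAt ℂ (fun y => fderiv ℂ f y (Pi.single j 1) i) z := by
  have h3 : AnalyticAt ℂ (fun y => fderiv ℂ f y) z := hf.fderiv
  have h4 : AnalyticAt ℂ (fun y => fderiv ℂ f y (Pi.single j 1)) z := by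
    have := (ContinuousLinearMap.apply ℂ (Cm n) (Pi.single j 1 : Cm n)).analyticAt (fderiv ℂ f z)
    exact this.comp_of_eq h3 rfl
  have := (ContinuousLinearMap.proj (R := ℂ) (φ := fun _ : Fin n => ℂ) i).analyticAt
    (fderiv ℂ f z (Pi.single j 1))
  exact this.comp_of_eq h4 rfl

theorem analyticAt_det {f : Cm n → Cm n} {z : Cm n} (hf : AnalyticAt ℂ f z) :
    AnalyticAt ℂ (fun y => (LinearMap.toMatrix' (fderiv ℂ f y : Cm n →ₗ[ℂ] Cm n)).det) z := by
  simp only [Matrix.det_apply', LinearMap.toMatrix'_apply]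
  refine Finset.analyticAt_fun_sum _ fun σ _ => analyticAt_const.mul ?_
  exact Finset.analyticAt_fun_prod _ fun i _ => analyticAt_entry hf _ _

variable {M : Type} [MetricSpace M] [ChartedSpace (Cm n) M]

/-- the Jacobian matrix only depends on the germ of the change of coordinates -/
theorem jac_of_ev {e e' : Chart n M} {x : M} {F : Cm n → Cm n}
    (h : (fun y => e' (e.symm y)) =ᶠ[𝓝 (e x)] F) (hF : DifferentiableAt ℂ F (e x)) :
    jacM e e' x = LinearMap.toMatrix' (fderiv ℂ F (e x) : Cm n →ₗ[ℂ] Cm n) := by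
  ext p i
  have h1 := dz_comp (hF.congr_of_eventuallyEq h) p i
  rw [h.fderiv_eq] at h1
  exact h1

theorem ev_target {e : Chart n M} {z : Cm n} (hz : z ∈ e.target) : ∀ᶠ y in 𝓝 z, y ∈ e.target :=
  e.open_target.mem_nhds hz

theorem ev_both {e e' : Chart n M} {z : Cm n} (hz : z ∈ e.target) (hz' : e.symm z ∈ e'.source) :
    ∀ᶠ y in 𝓝 z, y ∈ e.target ∧ e.symm y ∈ e'.source :=
  (ev_target hz).and ((e.continuousAt_symm hz).eventually (e'.open_source.mem_nhds hz'))

theorem jac_self (e : Chart n M) {x : M} (hx : x ∈ e.source) : jacM e e x = 1 := by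
  have h : (fun y => e (e.symm y)) =ᶠ[𝓝 (e x)] id := by
    filter_upwards [ev_target (e.map_source hx)] with y hy
    exact e.right_inv hy
  rw [jac_of_ev h differentiableAt_id, fderiv_id]
  exact LinearMap.toMatrix'_id

variable [IsManifold 𝓘(ℂ, Cm n) 1 M]

theorem chart (x : M) : Hc (chartAt (Cm n) x) := chart_mem_maximalAtlas x

theorem hol {e e' : Chart n M} (he : Hc e) (he' : Hc e') {z : Cm n} (hz : z ∈ e.target)
    (hz' : e.symm z ∈ e'.source) : AnalyticAt ℂ (fun y => e' (e.symm y)) z :=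
  P268.analyticAt_of_differentiableOn (e.symm.trans e').open_source
    ((transition_complex he he').differentiableOn (by simp)) ⟨hz, hz'⟩

theorem hol' {e e' : Chart n M} (he : Hc e) (he' : Hc e') {x : M} (hx : x ∈ e.source)
    (hx' : x ∈ e'.source) : AnalyticAt ℂ (fun y => e' (e.symm y)) (e x) :=
  hol he he' (e.map_source hx) (by rwa [e.left_inv hx])

theorem restr {e : Chart n M} (he : Hc e) {U : Set M} (hU : IsOpen U) : Hc (e.restr U) :=
  restr_mem_maximalAtlas (contDiffGroupoid 1 𝓘(ℂ, Cm n)) he hU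

theorem jac_eq {e e' : Chart n M} (he : Hc e) (he' : Hc e') {x : M} (hx : x ∈ e.source)
    (hx' : x ∈ e'.source) : jacM e e' x =
    LinearMap.toMatrix' (fderiv ℂ (fun y => e' (e.symm y)) (e x) : Cm n →ₗ[ℂ] Cm n) :=
  jac_of_ev EventuallyEq.rfl (hol' he he' hx hx').differentiableAt

theorem jac_mul {e e' e'' : Chart n M} (he : Hc e) (he' : Hc e') (he'' : Hc e'') {x : M}
    (hx : x ∈ e.source) (hx' : x ∈ e'.source) (hx'' : x ∈ e''.source) :
    jacM e e'' x = jacM e' e'' x * jacM e e' x := by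
  have h1 := (hol' he he' hx hx').differentiableAt
  have h2 : DifferentiableAt ℂ (fun y => e'' (e'.symm y)) (e' (e.symm (e x))) := by
    rw [e.left_inv hx]
    exact (hol' he' he'' hx' hx'').differentiableAt
  have h : (fun y => e'' (e.symm y)) =ᶠ[𝓝 (e x)]
      (fun y => e'' (e'.symm y)) ∘ fun y => e' (e.symm y) := by
    filter_upwards [ev_both (e.map_source hx) (by rwa [e.left_inv hx] : e.symm (e x) ∈ e'.source)]
      with y hy
    simp only [Function.comp_apply, e'.left_inv hy.2]
  have h3 := HasFDerivAt.comp (f := fun y => e' (e.symm y)) (e x) h2.hasFDerivAt h1.hasFDerivAt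
  rw [jac_of_ev h h3.differentiableAt, h3.fderiv, jac_eq he he' hx hx',
    jac_eq he' he'' hx' hx'', e.left_inv hx, ← LinearMap.toMatrix'_comp]
  rfl

theorem jac_ne {e e' : Chart n M} (he : Hc e) (he' : Hc e') {x : M} (hx : x ∈ e.source)
    (hx' : x ∈ e'.source) : (jacM e e' x).det ≠ 0 := by
  have h := jac_mul he he' he hx hx' hx
  rw [jac_self e hx] at h
  have h2 := congrArg Matrix.det h
  rw [Matrix.det_one, Matrix.det_mul] at h2
  exact right_ne_zero_of_mul (h2 ▸ one_ne_zero)

theorem jac_an {e e' : Chart n M} (he : Hc e) (he' : Hc e') {z : Cm n} (hz : z ∈ e.target)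
    (hz' : e.symm z ∈ e'.source) : AnalyticAt ℂ (fun y => (jacM e e' (e.symm y)).det) z := by
  refine (analyticAt_det (hol he he' hz hz')).congr ?_
  filter_upwards [ev_both hz hz'] with y hy
  rw [jac_eq he he' (e.map_target hy.1) hy.2, e.right_inv hy.1]

theorem aff {e : Chart n M} (he : Hc e) (L : Cm n ≃L[ℂ] Cm n) (b : Cm n) :
    ∃ e' : Chart n M, Hc e' ∧
    e'.source = e.source ∧ e'.target = {z | L.symm z + b ∈ e.target} ∧
    (∀ x, e' x = L (e x - b)) ∧ (∀ z, e'.symm z = e.symm (L.symm z + b)) ∧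
    ∀ x ∈ e.source, jacM e e' x = LinearMap.toMatrix' (L : Cm n →ₗ[ℂ] Cm n) := by
  let h : Cm n ≃ₜ Cm n := (Homeomorph.subRight b).trans L.toHomeomorph
  have hA : ContDiff ℂ 1 fun z : Cm n => L (z - b) := L.contDiff.comp (contDiff_id.sub contDiff_const)
  have hB : ContDiff ℂ 1 fun z : Cm n => L.symm z + b := L.symm.contDiff.add contDiff_const
  refine ⟨e.transHomeomorph h, ?_, rfl, rfl, fun _ => rfl, fun _ => rfl, fun x hx => ?_⟩
  · refine OpenPartialHomeomorph.mem_maximalAtlas_of_contMDiffOn _ ?_ ?_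
    · exact hA.contMDiff.comp_contMDiffOn (contMDiffOn_of_mem_maximalAtlas he)
    · exact (contMDiffOn_symm_of_mem_maximalAtlas he).comp hB.contMDiff.contMDiffOn fun z hz => hz
  · have h1 : (fun y => (e.transHomeomorph h) (e.symm y)) =ᶠ[𝓝 (e x)] fun z => L (z - b) := by
      filter_upwards [ev_target (e.map_source hx)] with y hy
      change L (e (e.symm y) - b) = _
      rw [e.right_inv hy]
    have h2 : HasFDerivAt (fun z : Cm n => L (z - b)) (L : Cm n →L[ℂ] Cm n) (e x) := by
      simpa using L.hasFDerivAt.comp (e x) ((hasFDerivAt_id (e x)).sub_const b)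
    rw [jac_of_ev h1 h2.differentiableAt, h2.fderiv]
    rfl

end Vale.Agent.P253Z.B1aP
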