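import Vale.Agent.P253Z.B1a.Ch

/-!
# P253Z, block B1a: sections of the powers of the canonical bundle
-/

open scoped Manifold ContDiff Topology
open IsManifold Set Metric Filter Vale.Agent.P253.Mfd
open Vale.Agent.P272.K (Cm dz jacM Chart)
open Vale.Agent.P253.R2.H451 (ContPsh)

set_option linter.unusedSectionVars false

noncomputable section

namespace Vale.Agent.P253Z.B1aP

variable {n : ℕ} {M : Type} [MetricSpace M] [ChartedSpace (Cm n) M] [IsManifold 𝓘(ℂ, Cm n) 1 M]

theorem co_at (k : ℤ) (s : M → ℂ) {e : Chart n M} {x : M} (hx : x ∈ e.source) :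
    co k s e (e x) = (jacM e (chartAt (Cm n) x) x).det ^ k * s x := by
  unfold co
  rw [e.left_inv hx]

theorem co_self (k : ℤ) (s : M → ℂ) (x : M) :
    co k s (chartAt (Cm n) x) (chartAt (Cm n) x x) = s x := by
  rw [co_at k s (mem_chart_source _ x), jac_self _ (mem_chart_source _ x), Matrix.det_one,
    one_zpow, one_mul]

theorem co_ch (k : ℤ) (s : M → ℂ) {e e' : Chart n M} (he : Hc e) (he' : Hc e') {x : M}
    (hx : x ∈ e.source) (hx' : x ∈ e'.source) :
    co k s e (e x) = (jacM e e' x).det ^ k * co k s e' (e' x) := by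
  rw [co_at k s hx, co_at k s hx', jac_mul he he' (chart x) hx hx' (mem_chart_source _ x),
    Matrix.det_mul, mul_zpow]
  ring

theorem jac_ne' {e : Chart n M} (he : Hc e) {z : Cm n} (hz : z ∈ e.target) :
    (jacM e (chartAt (Cm n) (e.symm z)) (e.symm z)).det ≠ 0 :=
  jac_ne he (chart _) (e.map_target hz) (mem_chart_source _ _)

theorem co_mul (k l : ℤ) (s t : M → ℂ) {e : Chart n M} (he : Hc e) {z : Cm n}
    (hz : z ∈ e.target) : co (k + l) (s * t) e z = co k s e z * co l t e z := by
  unfold co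
  rw [zpow_add₀ (jac_ne' he hz), Pi.mul_apply]
  ring

theorem ext (k : ℤ) {e : Chart n M} (he : Hc e) (σ : Cm n → ℂ) : ∃ s : M → ℂ,
    (∀ x ∉ e.source, s x = 0) ∧ ∀ z ∈ e.target, co k s e z = σ z := by
  classical
  refine ⟨fun x => if x ∈ e.source then
    ((jacM e (chartAt (Cm n) x) x).det ^ k)⁻¹ * σ (e x) else 0, fun x hx => if_neg hx,
    fun z hz => ?_⟩
  unfold co
  beta_reduce
  rw [if_pos (e.map_target hz), e.right_inv hz, ← mul_assoc,
    mul_inv_cancel₀ (zpow_ne_zero k (jac_ne' he hz)), one_mul]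

/-- the change of the coefficient near a point -/
theorem co_ev (k : ℤ) (s : M → ℂ) {e e' : Chart n M} (he : Hc e) (he' : Hc e') {z : Cm n}
    (hz : z ∈ e.target) (hz' : e.symm z ∈ e'.source) :
    (fun y => (jacM e e' (e.symm y)).det ^ k * co k s e' (e' (e.symm y))) =ᶠ[𝓝 z] co k s e := by
  filter_upwards [ev_both hz hz'] with y hy
  rw [← co_ch k s he he' (e.map_target hy.1) hy.2, e.right_inv hy.1]

theorem jac_zpow_an (k : ℤ) {e e' : Chart n M} (he : Hc e) (he' : Hc e') {z : Cm n}
    (hz : z ∈ e.target) (hz' : e.symm z ∈ e'.source) :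
    AnalyticAt ℂ (fun y => (jacM e e' (e.symm y)).det ^ k) z :=
  (jac_an he he' hz hz').zpow (jac_ne he he' (e.map_target hz) hz')

theorem real_of_an {F : Type*} [NormedAddCommGroup F] [NormedSpace ℂ F] [CompleteSpace F]
    {f : Cm n → F} {z : Cm n} (h : AnalyticAt ℂ f z) : ContDiffAt ℝ ∞ f z :=
  h.contDiffAt.restrict_scalars ℝ

theorem sec_loc (k : ℤ) (s : M → ℂ) (h : ∀ x, ∃ e : Chart n M, Hc e ∧ x ∈ e.source ∧
    AnalyticAt ℂ (co k s e) (e x)) : IsSec n k s := by
  intro e he z hz
  obtain ⟨e', he', hz', ha⟩ := h (e.symm z)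
  exact ((jac_zpow_an k he he' hz hz').mul (ha.comp_of_eq (hol he he' hz hz') rfl)).congr
    (co_ev k s he he' hz hz')

theorem smSec_loc (k : ℤ) (s : M → ℂ) (h : ∀ x, ∃ e : Chart n M, Hc e ∧ x ∈ e.source ∧
    ContDiffAt ℝ ∞ (co k s e) (e x)) : SmSec n k s := by
  intro e he z hz
  obtain ⟨e', he', hz', ha⟩ := h (e.symm z)
  have h1 := ContDiffAt.comp (f := fun y => e' (e.symm y)) z ha (real_of_an (hol he he' hz hz'))
  exact ((real_of_an (jac_zpow_an k he he' hz hz')).mul h1).congr_of_eventuallyEq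
    (co_ev k s he he' hz hz').symm

theorem sm_loc (ψ : M → ℝ) (h : ∀ x, ∃ e : Chart n M, Hc e ∧ x ∈ e.source ∧
    ContDiffAt ℝ ∞ (fun y => ψ (e.symm y)) (e x)) : Sm n ψ := by
  intro e he z hz
  obtain ⟨e', he', hz', ha⟩ := h (e.symm z)
  have h1 := ContDiffAt.comp (f := fun y => e' (e.symm y)) z ha (real_of_an (hol he he' hz hz'))
  refine h1.congr_of_eventuallyEq ?_
  filter_upwards [ev_both hz hz'] with y hy
  simp only [Function.comp_apply, e'.left_inv hy.2]

theorem ev_chart {β : Type*} (f : M → β) (x : M) :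
    f =ᶠ[𝓝 x] (fun y => f ((chartAt (Cm n) x).symm y)) ∘ chartAt (Cm n) x := by
  filter_upwards [chart_source_mem_nhds (Cm n) x] with y hy
  simp only [Function.comp_apply, (chartAt (Cm n) x).left_inv hy]

theorem sm_cont (ψ : M → ℝ) (h : Sm n ψ) : Continuous ψ := by
  refine continuous_iff_continuousAt.2 fun x => ?_
  have h1 := (h _ (chart x) _ (mem_chart_target _ x)).continuousAt
  exact (h1.comp ((chartAt (Cm n) x).continuousAt (mem_chart_source _ x))).congr
    (ev_chart ψ x).symm

theorem co_zero (f : M → ℂ) (e : Chart n M) : co 0 f e = fun y => f (e.symm y) := by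
  funext y
  unfold co
  rw [zpow_zero, one_mul]

theorem sec_zero (f : M → ℂ) : IsSec n 0 f ↔ MDifferentiable 𝓘(ℂ, Cm n) 𝓘(ℂ, ℂ) f := by
  constructor
  · intro h x
    have h1 := (h _ (chart x) _ (mem_chart_target _ x)).differentiableAt
    rw [co_zero] at h1
    exact (h1.mdifferentiableAt.comp x
      (mdifferentiableAt_of_mem_maximalAtlas (chart x) (mem_chart_source _ x))).congr_of_eventuallyEq
      (ev_chart f x)
  · intro h e he z hz
    rw [co_zero]
    refine P268.analyticAt_of_differentiableOn e.open_target (fun y hy => ?_) hz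
    exact ((h (e.symm y)).comp y
      (mdifferentiableAt_symm_of_mem_maximalAtlas he hy)).differentiableAt.differentiableWithinAt

theorem sec_mul (k l : ℤ) (s t : M → ℂ) (hs : IsSec n k s) (ht : IsSec n l t) :
    IsSec n (k + l) (s * t) := by
  intro e he z hz
  refine ((hs e he z hz).mul (ht e he z hz)).congr ?_
  filter_upwards [ev_target hz] with y hy
  rw [co_mul k l s t he hy, Pi.mul_apply]

theorem ident [ConnectedSpace M] (k : ℤ) (s : M → ℂ) (hs : IsSec n k s) (x : M)
    (hx : ∀ᶠ y in 𝓝 x, s y = 0) : s = 0 := by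
  have hop : IsOpen {x : M | ∀ᶠ y in 𝓝 x, s y = 0} := isOpen_setOfPred_eventually_nhds
  have hcl : IsClosed {x : M | ∀ᶠ y in 𝓝 x, s y = 0} := by
    refine isClosed_of_closure_subset fun p hp => ?_
    set e := chartAt (Cm n) p with he
    have hp1 : p ∈ e.source := mem_chart_source _ p
    obtain ⟨r, hr, hb⟩ := Metric.isOpen_iff.1 e.open_target _ (e.map_source hp1)
    have hN : e.source ∩ e ⁻¹' ball (e p) r ∈ 𝓝 p :=
      inter_mem (e.open_source.mem_nhds hp1) ((e.continuousAt hp1).preimage_mem_nhds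
        (ball_mem_nhds _ hr))
    obtain ⟨q, hq, hq'⟩ := mem_closure_iff_nhds.1 hp _ hN
    have han : AnalyticOnNhd ℂ (co k s e) (ball (e p) r) := fun z hz => hs e (chart p) z (hb hz)
    have h0 : co k s e =ᶠ[𝓝 (e q)] 0 := by
      have h1 : Tendsto e.symm (𝓝 (e q)) (𝓝 q) := by
        have := e.continuousAt_symm (e.map_source hq.1)
        rwa [ContinuousAt, e.left_inv hq.1] at this
      filter_upwards [h1.eventually hq'] with y hy
      unfold co
      rw [hy, mul_zero, Pi.zero_apply]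
    have h2 := han.eqOn_zero_of_preconnected_of_eventuallyEq_zero
      (convex_ball _ _).isPreconnected hq.2 h0
    filter_upwards [hN] with y hy
    have h3 := h2 hy.2
    rw [co_at k s hy.1, Pi.zero_apply, mul_eq_zero] at h3
    exact h3.resolve_left (zpow_ne_zero k (jac_ne (chart p) (chart y) hy.1 (mem_chart_source _ y)))
  have h := IsClopen.eq_univ ⟨hcl, hop⟩ ⟨x, hx⟩
  funext y
  have hy : y ∈ {x : M | ∀ᶠ y in 𝓝 x, s y = 0} := h ▸ mem_univ y
  exact hy.self_of_nhds

/-- `log max (|g|, a)` is subharmonic -/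
theorem submean {g : ℂ → ℂ} {c : ℂ} {r a : ℝ} (hr : 0 < r) (ha : 0 < a)
    (hg : ContinuousOn g (closedBall c r)) (hd : DifferentiableOn ℂ g (ball c r)) :
    Real.log (max ‖g c‖ a) ≤ Real.circleAverage (fun z => Real.log (max ‖g z‖ a)) c r := by
  have hpos : ∀ z, 0 < max ‖g z‖ a := fun z => ha.trans_le (le_max_right _ _)
  have hu : ContinuousOn (fun z => Real.log (max ‖g z‖ a)) (closedBall c r) :=
    fun z hz => ((hg z hz).norm.max continuousWithinAt_const).log (hpos z).ne'
  refine P253.R2.H380.Stein.submean_of_local (u := fun z => Real.log (max ‖g z‖ a)) hr hu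
    fun z hz => ?_
  have hint : ∀ ρ, 0 < ρ → closedBall z ρ ⊆ ball c r →
      CircleIntegrable (fun z => Real.log (max ‖g z‖ a)) z ρ := fun ρ hρ h =>
    (hu.mono (sphere_subset_closedBall.trans (h.trans ball_subset_closedBall))).circleIntegrable hρ.le
  have hsm : ∀ V ∈ 𝓝 z, ∀ᶠ ρ in 𝓝[>] (0 : ℝ), 0 < ρ ∧ closedBall z ρ ⊆ V := fun V hV =>
    (eventually_mem_nhdsWithin).and ((eventually_closedBall_subset hV).filter_mono
      nhdsWithin_le_nhds)
  rcases le_or_gt ‖g z‖ a with h | h
  · filter_upwards [hsm _ (isOpen_ball.mem_nhds hz)] with ρ hρ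
    rw [max_eq_right h, ← Real.circleAverage_const (Real.log a) z ρ]
    refine Real.circleAverage_mono (circleIntegrable_const _ _ _) (hint ρ hρ.1 hρ.2) fun w _ => ?_
    exact Real.log_le_log ha (le_max_right _ _)
  · have hc : ContinuousAt g z := (hd.differentiableAt (isOpen_ball.mem_nhds hz)).continuousAt
    have hV : ball c r ∩ {w | a < ‖g w‖} ∈ 𝓝 z :=
      inter_mem (isOpen_ball.mem_nhds hz) (hc.norm.eventually (lt_mem_nhds h))
    filter_upwards [hsm _ hV] with ρ hρ
    have han : AnalyticOnNhd ℂ g (closedBall z |ρ|) := by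
      rw [abs_of_pos hρ.1]
      exact (hd.analyticOnNhd isOpen_ball).mono fun w hw => (hρ.2 hw).1
    have hlt : ∀ w ∈ closedBall z |ρ|, a < ‖g w‖ := by
      rw [abs_of_pos hρ.1]
      exact fun w hw => (hρ.2 hw).2
    have h1 := han.circleAverage_log_norm_of_ne_zero fun w hw =>
      norm_pos_iff.1 (ha.trans (hlt w hw))
    rw [max_eq_left h.le, ← h1]
    refine (Real.circleAverage_congr_sphere fun w hw => ?_).le
    simp only [max_eq_left (hlt w (sphere_subset_closedBall hw)).le]

theorem psh (f : M → ℂ) (hf : IsSec n 0 f) (a : ℝ) (ha : 0 < a) :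
    ContPsh (Cm n) fun x => Real.log (max ‖f x‖ a) := by
  have hd := (sec_zero f).1 hf
  refine ⟨(hd.continuous.norm.max continuous_const).log fun x =>
    (ha.trans_le (le_max_right _ _)).ne', fun γ c r hr hγ hγ' => ?_⟩
  refine submean (g := fun z => f (γ z)) hr ha (hd.continuous.comp_continuousOn hγ) ?_
  exact (hd.comp_mdifferentiableOn hγ').differentiableOn

end Vale.Agent.P253Z.B1aP
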